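import Vale.Agent.P193.H870.Final

namespace Vale.Agent.Results.P193.BooneHigmanBounded

open Vale.Agent.P193 Vale.Agent.P193.H870

universe u

/-- The Boone-Higman conjecture in a uniform form. The first clause is Q1 exactly as posed.
Then there is one absolute constant `N` such that:

* a group with finitely many generators has decidable word problem if and only if it embeds in a
  simple group that has a presentation with at most `N` generators and at most `N` relators;
* a sequence of groups `G i`, each generated by a sequence `f i`, has uniformly decidable word
  problem if and only if all `G i` embed in one such simple group, by embeddings that are given on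
  the generators by a computable function;
* (Higman's embedding theorem in the class of simple groups) a simple group with finitely many
  generators is recursively presented if and only if it embeds in such a simple group;
* for a recursively enumerable set `S` of finite presentations of simple groups, one such simple
  group contains all groups presented by members of `S`;
* for a `Sigma^0_2` set `S` of finite presentations of simple groups, one such simple group embeds
  in no group presented by a member of `S`;
* the set of all such presentations of simple groups is `Pi^0_2` and not `Sigma^0_2`. -/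
theorem result :
    (∀ {n : ℕ} {G : Type u} [Group G] (f : Fin n → G),
      Subgroup.closure (Set.range f) = ⊤ →
      (ComputablePred fun w : List (Fin n × Bool) => FreeGroup.lift f (FreeGroup.mk w) = 1) →
      ∃ (K : Type) (_ : Group K), IsSimpleGroup K ∧ Group.IsFinitelyPresented K ∧
        ∃ ψ : G →* K, Function.Injective ψ) ∧
    ∃ N : ℕ,
      (∀ {n : ℕ} {G : Type u} [Group G] (f : Fin n → G),
        Subgroup.closure (Set.range f) = ⊤ →
        ((ComputablePred fun w : List (Fin n × Bool) => FreeGroup.lift f (FreeGroup.mk w) = 1) ↔
          ∃ P : Presentation, SimpleWithin N P ∧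
            ∃ ψ : G →* PGroup P, Function.Injective ψ)) ∧
      (∀ (G : ℕ → Type u) [∀ i, Group (G i)] (f : ∀ i, ℕ → G i),
        (∀ i, Subgroup.closure (Set.range (f i)) = ⊤) →
        ((ComputablePred fun x : ℕ × List (ℕ × Bool) =>
            FreeGroup.lift (f x.1) (FreeGroup.mk x.2) = 1) ↔
          ∃ (P : Presentation) (W : ℕ → ℕ → List (ℕ × Bool)) (ψ : ∀ i, G i →* PGroup P),
            SimpleWithin N P ∧ Computable₂ W ∧
              ∀ i, Function.Injective (ψ i) ∧ ∀ j, ψ i (f i j) = value P (W i j))) ∧
      (∀ {n : ℕ} {S : Type u} [Group S] (f : Fin n → S),
        Subgroup.closure (Set.range f) = ⊤ → IsSimpleGroup S →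
        ((REPred fun w : List (Fin n × Bool) => FreeGroup.lift f (FreeGroup.mk w) = 1) ↔
          ∃ P : Presentation, SimpleWithin N P ∧
            ∃ ψ : S →* PGroup P, Function.Injective ψ)) ∧
      (∀ S : Set Presentation, (∀ P ∈ S, IsSimpleGroup (PGroup P)) → (REPred fun P => P ∈ S) →
        ∃ Q, SimpleWithin N Q ∧ ∀ P ∈ S, Embeds (PGroup P) (PGroup Q)) ∧
      (∀ S : Set Presentation, (∀ P ∈ S, IsSimpleGroup (PGroup P)) → IsSigma2 S →
        ∃ Q, SimpleWithin N Q ∧ ∀ P ∈ S, ¬ Embeds (PGroup Q) (PGroup P)) ∧
      IsPi2 {P | SimpleWithin N P} ∧ ¬ IsSigma2 {P | SimpleWithin N P} :=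
  ⟨fun f hf hdec => Vale.Agent.P193.BH.booneHigman f hf hdec,
    NB, fun f hf => fg_bound f hf, fun _ _ f hf => family_bound f hf,
    fun f hf hS => simple_bound f hf hS, re_bound, sigma_bound, pi_two_within NB,
    not_sigma_within⟩

end Vale.Agent.Results.P193.BooneHigmanBounded
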