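import Vale.Agent.P193.H366.Main

namespace Vale.Agent.Results.P193.UnitsOfSimpleAlgebras

open Vale.Agent.P193.H366

universe u

/-- The Boone-Higman conjecture, and its form for algebras. (1) Q1 exactly as posed. (2) For a
group `G` generated by finitely many elements the following are equivalent: the word problem of `G`
is decidable; `G` embeds in a finitely presented simple group; `G` embeds in the group of units of a
finitely presented simple algebra over `𝔽₂`; the group algebra `𝔽₂[G]` embeds in a finitely
presented simple `𝔽₂`-algebra with centre `𝔽₂` in which every nonzero `a` has `p`, `q` with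
`p a q = 1`. (3) Finitely presented simple `𝔽₂`-algebras have decidable word problem. -/
theorem result :
    (∀ {n : ℕ} {G : Type u} [Group G] (f : Fin n → G),
      Subgroup.closure (Set.range f) = ⊤ →
      (ComputablePred fun w : List (Fin n × Bool) => FreeGroup.lift f (FreeGroup.mk w) = 1) →
      ∃ (K : Type) (_ : Group K), IsSimpleGroup K ∧ Group.IsFinitelyPresented K ∧
        ∃ ψ : G →* K, Function.Injective ψ) ∧
    (∀ {n : ℕ} {G : Type u} [Group G] (f : Fin n → G),
      Subgroup.closure (Set.range f) = ⊤ →
      List.TFAE [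
        ComputablePred fun w : List (Fin n × Bool) => FreeGroup.lift f (FreeGroup.mk w) = 1,
        ∃ (K : Type) (_ : Group K), IsSimpleGroup K ∧ Group.IsFinitelyPresented K ∧
          ∃ ψ : G →* K, Function.Injective ψ,
        ∃ (A : Type) (_ : Ring A) (_ : Algebra (ZMod 2) A),
          FinitelyPresentedAlgebra (ZMod 2) A ∧ IsSimpleRing A ∧
          ∃ ψ : G →* Aˣ, Function.Injective ψ,
        ∃ (A : Type) (_ : Ring A) (_ : Algebra (ZMod 2) A),
          FinitelyPresentedAlgebra (ZMod 2) A ∧ IsSimpleRing A ∧
          (∀ a : A, a ≠ 0 → ∃ p q : A, p * a * q = 1) ∧ Subalgebra.center (ZMod 2) A = ⊥ ∧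
          ∃ φ : MonoidAlgebra (ZMod 2) G →ₐ[ZMod 2] A, Function.Injective φ]) ∧
    (∀ (A : Type) [Ring A] [Algebra (ZMod 2) A],
      FinitelyPresentedAlgebra (ZMod 2) A → IsSimpleRing A → ∀ (m : ℕ) (a : Fin m → A),
        ComputablePred fun l : List (List (Fin m)) => (l.map fun w => (w.map a).prod).sum = 0) :=
  ⟨fun f hf hdec => Vale.Agent.P193.BH.booneHigman f hf hdec, fun f hf => tfae f hf,
    fun _ _ _ hfp _ _ a => algebra_decidable hfp a⟩

end Vale.Agent.Results.P193.UnitsOfSimpleAlgebras
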